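import Mathlib

/-!
# Chains of small lists of points (module M1 of P052)

mod 2 chains of lists of points, boundary, prism operator, and the antipodal
filtration `h 0, h 1, ...` of the `ℓ¹` sphere by small lists.
-/

namespace Vale.Agent.P052.R2.H612

open Finsupp

/-- mod 2 chains of lists of points -/
abbrev Ch (V : Type*) := List V →₀ ZMod 2

variable {V W : Type*}

theorem Ch.add_self (z : Ch V) : z + z = 0 := by
  ext l
  simp only [Finsupp.add_apply, Finsupp.coe_zero, Pi.zero_apply]
  generalize z l = a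
  revert a
  decide

/-- `x ::` on chains -/
noncomputable def consL (x : V) : Ch V →ₗ[ZMod 2] Ch V :=
  Finsupp.lmapDomain (ZMod 2) (ZMod 2) (fun l => x :: l)

@[simp] theorem consL_single (x : V) (l : List V) (a : ZMod 2) :
    consL x (single l a) = single (x :: l) a := by
  simp [consL]

/-- the boundary of a list -/
noncomputable def bdl : List V → Ch V
  | [] => 0
  | (x :: l) => single l 1 + consL x (bdl l)

@[simp] theorem bdl_nil : bdl ([] : List V) = 0 := rfl

@[simp] theorem bdl_cons (x : V) (l : List V) : bdl (x :: l) = single l 1 + consL x (bdl l) := rfl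

/-- the boundary of a chain -/
noncomputable def bd : Ch V →ₗ[ZMod 2] Ch V := Finsupp.linearCombination (ZMod 2) bdl

@[simp] theorem bd_single (l : List V) : bd (single l 1) = bdl l := by
  simp [bd]

/-- a linear map out of chains is determined by single lists -/
theorem ext_single {M : Type*} [AddCommMonoid M] [Module (ZMod 2) M] {f g : Ch V →ₗ[ZMod 2] M}
    (h : ∀ l, f (single l 1) = g (single l 1)) : f = g := by
  apply Finsupp.lhom_ext'
  intro l
  apply LinearMap.ext_ring
  simpa using h l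

theorem ext_apply {M : Type*} [AddCommMonoid M] [Module (ZMod 2) M] {f g : Ch V →ₗ[ZMod 2] M}
    (h : ∀ l, f (single l 1) = g (single l 1)) (z : Ch V) : f z = g z := by
  rw [ext_single h]

theorem bd_consL (x : V) (z : Ch V) : bd (consL x z) = z + consL x (bd z) := by
  have : bd ∘ₗ (consL x) = LinearMap.id + (consL x) ∘ₗ (bd : Ch V →ₗ[ZMod 2] Ch V) := by
    apply ext_single
    intro l
    simp
  exact congrArg (fun f => f z) this

theorem bd_bdl (l : List V) : bd (bdl l) = 0 := by
  induction l with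
  | nil => simp
  | cons x l ih =>
    rw [bdl_cons, map_add, bd_single, bd_consL, ih, map_zero, add_zero, Ch.add_self]

theorem bd_bd (z : Ch V) : bd (bd z) = 0 := by
  have : bd ∘ₗ bd = (0 : Ch V →ₗ[ZMod 2] Ch V) := by
    apply ext_single
    intro l
    simpa using bd_bdl l
  exact congrArg (fun f => f z) this

/-- functoriality -/
noncomputable def mapC (f : V → W) : Ch V →ₗ[ZMod 2] Ch W :=
  Finsupp.lmapDomain (ZMod 2) (ZMod 2) (List.map f)

@[simp] theorem mapC_single (f : V → W) (l : List V) (a : ZMod 2) :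
    mapC f (single l a) = single (l.map f) a := by
  simp [mapC]

theorem mapC_consL (f : V → W) (x : V) (z : Ch V) :
    mapC f (consL x z) = consL (f x) (mapC f z) := by
  have : mapC f ∘ₗ consL x = consL (f x) ∘ₗ mapC f := by
    apply ext_single
    intro l
    simp
  exact congrArg (fun f => f z) this

theorem mapC_bdl (f : V → W) (l : List V) : mapC f (bdl l) = bdl (l.map f) := by
  induction l with
  | nil => simp
  | cons x l ih => simp [mapC_consL, ih]

theorem mapC_bd (f : V → W) (z : Ch V) : mapC f (bd z) = bd (mapC f z) := by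
  have : mapC f ∘ₗ bd = bd ∘ₗ mapC f := by
    apply ext_single
    intro l
    simp [mapC_bdl]
  exact congrArg (fun f => f z) this

theorem mapC_comp {X : Type*} (f : V → W) (g : W → X) (z : Ch V) :
    mapC g (mapC f z) = mapC (g ∘ f) z := by
  have : mapC g ∘ₗ mapC f = mapC (g ∘ f) := by
    apply ext_single
    intro l
    simp
  exact congrArg (fun f => f z) this

theorem mapC_id (z : Ch V) : mapC (fun x => x) z = z := by
  have : mapC (fun x : V => x) = LinearMap.id := by
    apply ext_single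
    intro l
    simp
  exact congrArg (fun f => f z) this

/-- prism of a list -/
noncomputable def prl (f g : V → W) : List V → Ch W
  | [] => 0
  | (x :: l) => single (f x :: g x :: l.map g) 1 + consL (f x) (prl f g l)

@[simp] theorem prl_nil (f g : V → W) : prl f g [] = 0 := rfl

@[simp] theorem prl_cons (f g : V → W) (x : V) (l : List V) :
    prl f g (x :: l) = single (f x :: g x :: l.map g) 1 + consL (f x) (prl f g l) := rfl

/-- prism of a chain -/
noncomputable def pr (f g : V → W) : Ch V →ₗ[ZMod 2] Ch W :=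
  Finsupp.linearCombination (ZMod 2) (prl f g)

@[simp] theorem pr_single (f g : V → W) (l : List V) : pr f g (single l 1) = prl f g l := by
  simp [pr]

theorem pr_consL (f g : V → W) (x : V) (z : Ch V) :
    pr f g (consL x z) = consL (f x) (consL (g x) (mapC g z)) + consL (f x) (pr f g z) := by
  have : pr f g ∘ₗ consL x = consL (f x) ∘ₗ consL (g x) ∘ₗ mapC g + consL (f x) ∘ₗ pr f g := by
    apply ext_single
    intro l
    simp
  exact congrArg (fun f => f z) this

theorem pr_homotopyl (f g : V → W) (l : List V) :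
    bd (prl f g l) + pr f g (bdl l) = single (l.map f) 1 + single (l.map g) 1 := by
  induction l with
  | nil =>
    simp only [prl_nil, map_zero, bdl_nil, List.map_nil, zero_add]
    exact (Ch.add_self _).symm
  | cons x l ih =>
    have ih' : pr f g (bdl l) = bd (prl f g l) + (single (l.map f) 1 + single (l.map g) 1) := by
      rw [← ih, ← add_assoc, Ch.add_self, zero_add]
    rw [prl_cons, bdl_cons, map_add, map_add, bd_single, bd_consL, pr_single, pr_consL, ih',
      mapC_bdl, bdl_cons, bdl_cons, map_add, map_add, map_add, List.map_cons, List.map_cons]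
    simp only [consL_single]
    have e1 := Ch.add_self (consL (f x) (single (List.map g l) (1 : ZMod 2)))
    have e2 := Ch.add_self (consL (f x) (consL (g x) (bdl (List.map g l))))
    have e3 := Ch.add_self (prl f g l)
    have e4 := Ch.add_self (consL (f x) (bd (prl f g l)))
    rw [consL_single] at e1
    generalize consL (f x) (consL (g x) (bdl (List.map g l))) = a2 at *
    generalize prl f g l = a3 at *
    generalize consL (f x) (bd a3) = a4 at *
    generalize (single (f x :: List.map g l) (1 : ZMod 2)) = a1 at *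
    generalize (single (f x :: List.map f l) (1 : ZMod 2)) = b1 at *
    generalize (single (g x :: List.map g l) (1 : ZMod 2)) = b2 at *
    calc b2 + (a1 + a2) + (a3 + a4) + (a3 + (a2 + (a4 + (b1 + a1))))
        = b1 + b2 + (a1 + a1) + (a2 + a2) + (a3 + a3) + (a4 + a4) := by abel
      _ = b1 + b2 := by rw [e1, e2, e3, e4]; simp

theorem pr_homotopy (f g : V → W) (z : Ch V) :
    bd (pr f g z) + pr f g (bd z) = mapC f z + mapC g z := by
  have : bd ∘ₗ pr f g + pr f g ∘ₗ bd = mapC f + mapC g := by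
    apply ext_single
    intro l
    simpa using pr_homotopyl f g l
  exact congrArg (fun f => f z) this

/-! ### supports -/

/-- the chain `z` is supported in the set `S` of lists -/
abbrev InS (S : Set (List V)) : Submodule (ZMod 2) (Ch V) := Finsupp.supported (ZMod 2) (ZMod 2) S

theorem single_mem_InS {S : Set (List V)} {l : List V} (h : l ∈ S) :
    single l (1 : ZMod 2) ∈ InS S :=
  Finsupp.single_mem_supported _ _ h

theorem InS_map {X : Type*} {S : Set (List V)} {T : Set (List X)} (f : Ch V →ₗ[ZMod 2] Ch X)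
    (h : ∀ l ∈ S, f (single l 1) ∈ InS T) {z : Ch V} (hz : z ∈ InS S) : f z ∈ InS T := by
  have : z ∈ Submodule.comap f (InS T) := by
    rw [InS, Finsupp.supported_eq_span_single] at hz
    refine (Submodule.span_le.2 ?_) hz
    rintro _ ⟨l, hl, rfl⟩
    exact h l hl
  exact this

/-- lists with `k + 1` entries, all in the `ℓ¹` sphere of the first `k + 1` coordinates,
with pairwise distances at most `D` -/
def Good (N k : ℕ) (D : ℝ) : Set (List (Fin N → ℝ)) :=
  {l | l.length = k + 1 ∧ (∀ x ∈ l, ∑ i, |x i| = 1) ∧ (∀ x ∈ l, ∀ i : Fin N, k < i.val → x i = 0) ∧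
    ∀ x ∈ l, ∀ y ∈ l, ∀ i, |x i - y i| ≤ D}

theorem prl_mem (f g : V → W) (l : List V) :
    prl f g l ∈ InS {m : List W | m.length = l.length + 1 ∧ ∀ y ∈ m, ∃ x ∈ l, y = f x ∨ y = g x} := by
  induction l with
  | nil => simp
  | cons x l ih =>
    rw [prl_cons]
    refine Submodule.add_mem _ (single_mem_InS ?_) ?_
    · refine ⟨by simp, ?_⟩
      intro y hy
      simp only [List.mem_cons, List.mem_map] at hy
      rcases hy with rfl | rfl | ⟨a, ha, rfl⟩
      · exact ⟨x, by simp, Or.inl rfl⟩
      · exact ⟨x, by simp, Or.inr rfl⟩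
      · exact ⟨a, by simp [ha], Or.inr rfl⟩
    · refine InS_map (consL (f x)) ?_ ih
      rintro m ⟨h1, h2⟩
      rw [consL_single]
      refine single_mem_InS ⟨by simp [h1], ?_⟩
      intro y hy
      rw [List.mem_cons] at hy
      rcases hy with rfl | hy
      · exact ⟨x, by simp, Or.inl rfl⟩
      · obtain ⟨a, ha, hy⟩ := h2 y hy
        exact ⟨a, by simp [ha], hy⟩

theorem InS_mono {S T : Set (List V)} (h : S ⊆ T) {z : Ch V} (hz : z ∈ InS S) : z ∈ InS T :=
  Finsupp.supported_mono h hz

/-! ### the concrete chains -/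

/-- unit vectors (zero if the index is too big) -/
noncomputable def ev (N k : ℕ) : Fin N → ℝ := fun i => if i.val = k then 1 else 0

/-- the straight line homotopy towards `ev N k` -/
noncomputable def Hh (N M k j : ℕ) (x : Fin N → ℝ) : Fin N → ℝ :=
  fun i => (1 - (j : ℝ) / M) * x i + (j : ℝ) / M * ev N k i

/-- the antipode -/
noncomputable def tau {N : ℕ} : Ch (Fin N → ℝ) →ₗ[ZMod 2] Ch (Fin N → ℝ) := mapC (fun x => -x)

theorem tau_tau {N : ℕ} (z : Ch (Fin N → ℝ)) : tau (tau z) = z := by
  unfold tau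
  rw [mapC_comp]
  have : ((fun x : Fin N → ℝ => -x) ∘ fun x => -x) = fun x => x := by
    funext x; simp
  rw [this, mapC_id]

/-- the antipodal filtration -/
noncomputable def hh (N M : ℕ) : ℕ → Ch (Fin N → ℝ)
  | 0 => single [ev N 0] 1
  | (k + 1) => ∑ j ∈ Finset.range M,
      pr (Hh N M (k + 1) j) (Hh N M (k + 1) (j + 1)) (hh N M k + tau (hh N M k))

theorem Hh_zero (N M k : ℕ) (x : Fin N → ℝ) : Hh N M k 0 x = x := by
  funext i; simp [Hh]

theorem Hh_M (N M k : ℕ) (hM : 0 < M) (x : Fin N → ℝ) : Hh N M k M x = ev N k := by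
  have : (M : ℝ) ≠ 0 := by exact_mod_cast hM.ne'
  funext i; simp [Hh, this]

theorem sum_pr (N M k : ℕ) (hM : 0 < M) (z : Ch (Fin N → ℝ)) (hz : bd z = 0) :
    bd (∑ j ∈ Finset.range M, pr (Hh N M k j) (Hh N M k (j + 1)) z) =
      z + mapC (fun _ => ev N k) z := by
  have key : ∀ m : ℕ, bd (∑ j ∈ Finset.range m, pr (Hh N M k j) (Hh N M k (j + 1)) z) =
      z + mapC (Hh N M k m) z := by
    intro m
    induction m with
    | zero =>
      have : mapC (Hh N M k 0) z = z := by
        have : (Hh N M k 0) = fun x => x := by funext x; exact Hh_zero N M k x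
        rw [this, mapC_id]
      rw [this]
      simp [Ch.add_self]
    | succ m ih =>
      rw [Finset.sum_range_succ, map_add, ih]
      have h1 := pr_homotopy (Hh N M k m) (Hh N M k (m + 1)) z
      rw [hz, map_zero, add_zero] at h1
      rw [h1, add_assoc, ← add_assoc (mapC (Hh N M k m) z), Ch.add_self, zero_add]
  rw [key M]
  have : (Hh N M k M) = fun _ => ev N k := by funext x; exact Hh_M N M k hM x
  rw [this]

theorem bd_hh (N M : ℕ) (hM : 0 < M) (k : ℕ) :
    bd (hh N M k + tau (hh N M k)) = 0 ∧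
      bd (hh N M (k + 1)) = hh N M k + tau (hh N M k) := by
  have step : ∀ k, bd (hh N M k + tau (hh N M k)) = 0 →
      bd (hh N M (k + 1)) = hh N M k + tau (hh N M k) := by
    intro k hk
    rw [hh, sum_pr N M (k + 1) hM _ hk]
    have : mapC (fun _ => ev N (k + 1)) (hh N M k + tau (hh N M k)) =
        (0 : Ch (Fin N → ℝ)) := by
      rw [map_add]
      unfold tau
      rw [mapC_comp]
      exact Ch.add_self _
    rw [this, add_zero]
  induction k with
  | zero =>
    have h0 : bd (hh N M 0 + tau (hh N M 0)) = 0 := by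
      rw [hh, map_add]
      unfold tau
      rw [mapC_single, bd_single, bd_single]
      simp [Ch.add_self]
    exact ⟨h0, step 0 h0⟩
  | succ k ih =>
    have h1 : bd (hh N M (k + 1) + tau (hh N M (k + 1))) = 0 := by
      rw [map_add]
      have : bd (tau (hh N M (k + 1))) = tau (bd (hh N M (k + 1))) := by
        unfold tau; rw [mapC_bd]
      rw [this, ih.2, map_add, tau_tau, add_comm (tau (hh N M k))]
      exact Ch.add_self _
    exact ⟨h1, step (k + 1) h1⟩

theorem Good_neg {N k : ℕ} {D : ℝ} {l : List (Fin N → ℝ)} (hl : l ∈ Good N k D) :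
    l.map (fun x => -x) ∈ Good N k D := by
  obtain ⟨h1, h2, h3, h4⟩ := hl
  refine ⟨by simp [h1], ?_, ?_, ?_⟩
  · intro x hx
    rw [List.mem_map] at hx
    obtain ⟨a, ha, rfl⟩ := hx
    simpa using h2 a ha
  · intro x hx i hi
    rw [List.mem_map] at hx
    obtain ⟨a, ha, rfl⟩ := hx
    simpa using h3 a ha i hi
  · intro x hx y hy i
    rw [List.mem_map] at hx hy
    obtain ⟨a, ha, rfl⟩ := hx
    obtain ⟨b, hb, rfl⟩ := hy
    have := h4 a ha b hb i
    rw [Pi.neg_apply, Pi.neg_apply, ← neg_sub', abs_neg]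
    exact this

theorem tau_mem {N k : ℕ} {D : ℝ} {z : Ch (Fin N → ℝ)} (hz : z ∈ InS (Good N k D)) :
    tau z ∈ InS (Good N k D) := by
  refine InS_map tau ?_ hz
  intro l hl
  unfold tau
  rw [mapC_single]
  exact single_mem_InS (Good_neg hl)

theorem abs_le_one_of_sum {N : ℕ} {x : Fin N → ℝ} (h : ∑ i, |x i| = 1) (i : Fin N) : |x i| ≤ 1 := by
  rw [← h]
  exact Finset.single_le_sum (f := fun i => |x i|) (fun _ _ => abs_nonneg _) (Finset.mem_univ i)

theorem Hh_sum {N M k j : ℕ} (hk : k + 1 < N) (hj : j ≤ M) (hM : 0 < M) {x : Fin N → ℝ}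
    (h1 : ∑ i, |x i| = 1) (h2 : ∀ i : Fin N, k < i.val → x i = 0) :
    (∑ i, |Hh N M (k + 1) j x i| = 1) ∧ (∀ i : Fin N, k + 1 < i.val → Hh N M (k + 1) j x i = 0) := by
  have hM' : (0 : ℝ) < M := by exact_mod_cast hM
  have ht1 : (j : ℝ) / M ≤ 1 := by
    rw [div_le_one hM']; exact_mod_cast hj
  have ht0 : 0 ≤ (j : ℝ) / M := by positivity
  set t := (j : ℝ) / M with ht
  constructor
  · have hpt : ∀ i : Fin N, |Hh N M (k + 1) j x i| =
        (1 - t) * |x i| + (if i = (⟨k + 1, hk⟩ : Fin N) then t else 0) := by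
      intro i
      unfold Hh ev
      rw [← ht]
      by_cases hi : i = (⟨k + 1, hk⟩ : Fin N)
      · subst hi
        rw [h2 ⟨k + 1, hk⟩ (by simp)]
        simp [abs_of_nonneg ht0]
      · have hi' : i.val ≠ k + 1 := fun hh => hi (Fin.ext hh)
        rw [if_neg hi, if_neg hi']
        simp [abs_mul, abs_of_nonneg (sub_nonneg.2 ht1)]
    rw [Finset.sum_congr rfl (fun i _ => hpt i), Finset.sum_add_distrib, ← Finset.mul_sum, h1]
    simp
  · intro i hi
    unfold Hh ev
    rw [h2 i (by omega), if_neg (by omega)]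
    simp

theorem Hh_dist {N M k j j' : ℕ} (hj : j ≤ M) (hM : 0 < M) (hjj : j' ≤ j + 1) (hjj' : j ≤ j' + 1)
    {D : ℝ} {x y : Fin N → ℝ} (i : Fin N) (hxy : |x i - y i| ≤ D) (hy : |y i| ≤ 1) :
    |Hh N M k j x i - Hh N M k j' y i| ≤ D + 2 / M := by
  have hM' : (0 : ℝ) < M := by exact_mod_cast hM
  have ht1 : (j : ℝ) / M ≤ 1 := by
    rw [div_le_one hM']; exact_mod_cast hj
  have ht0 : 0 ≤ (j : ℝ) / M := by positivity
  have he : |ev N k i| ≤ 1 := by
    unfold ev; split_ifs <;> simp
  have hdiff : |(j' : ℝ) / M - (j : ℝ) / M| ≤ 1 / M := by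
    rw [← sub_div, abs_div, abs_of_pos hM', div_le_div_iff_of_pos_right hM', abs_le]
    constructor
    · have : (j : ℝ) ≤ j' + 1 := by exact_mod_cast hjj'
      linarith
    · have : (j' : ℝ) ≤ j + 1 := by exact_mod_cast hjj
      linarith
  have hrw : Hh N M k j x i - Hh N M k j' y i =
      (1 - (j : ℝ) / M) * (x i - y i) + ((j' : ℝ) / M - (j : ℝ) / M) * (y i - ev N k i) := by
    unfold Hh; ring
  rw [hrw]
  refine (abs_add_le _ _).trans ?_
  rw [abs_mul, abs_mul, abs_of_nonneg (sub_nonneg.2 ht1)]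
  have h1 : (1 - (j : ℝ) / M) * |x i - y i| ≤ 1 * D := by
    apply mul_le_mul (by linarith) hxy (abs_nonneg _) (by norm_num)
  have h2 : |y i - ev N k i| ≤ 2 := by
    refine (abs_sub _ _).trans ?_
    linarith
  have h3 : |(j' : ℝ) / M - (j : ℝ) / M| * |y i - ev N k i| ≤ 1 / M * 2 :=
    mul_le_mul hdiff h2 (abs_nonneg _) (by positivity)
  calc _ ≤ 1 * D + 1 / M * 2 := add_le_add h1 h3
    _ = D + 2 / M := by ring

theorem prl_Good {N M k j : ℕ} (hk : k + 1 < N) (hj : j + 1 ≤ M) (hM : 0 < M) {D : ℝ}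
    {l : List (Fin N → ℝ)} (hl : l ∈ Good N k D) :
    prl (Hh N M (k + 1) j) (Hh N M (k + 1) (j + 1)) l ∈ InS (Good N (k + 1) (D + 2 / M)) := by
  refine InS_mono ?_ (prl_mem _ _ l)
  rintro m ⟨hm1, hm2⟩
  obtain ⟨h1, h2, h3, h4⟩ := hl
  have hm3 : ∀ y ∈ m, ∃ x ∈ l, ∃ i, j ≤ i ∧ i ≤ j + 1 ∧ y = Hh N M (k + 1) i x := by
    intro y hy
    obtain ⟨x, hx, hxy | hxy⟩ := hm2 y hy
    · exact ⟨x, hx, j, le_rfl, by omega, hxy⟩
    · exact ⟨x, hx, j + 1, by omega, le_rfl, hxy⟩
  refine ⟨by rw [hm1, h1], ?_, ?_, ?_⟩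
  · intro y hy
    obtain ⟨x, hx, i, hi1, hi2, rfl⟩ := hm3 y hy
    exact (Hh_sum hk (by omega) hM (h2 x hx) (h3 x hx)).1
  · intro y hy
    obtain ⟨x, hx, i, hi1, hi2, rfl⟩ := hm3 y hy
    exact (Hh_sum hk (by omega) hM (h2 x hx) (h3 x hx)).2
  · intro y hy y' hy' c
    obtain ⟨x, hx, i, hi1, hi2, rfl⟩ := hm3 y hy
    obtain ⟨x', hx', i', hi1', hi2', rfl⟩ := hm3 y' hy'
    exact Hh_dist (by omega) hM (by omega) (by omega) c (h4 x hx x' hx' c)
      (abs_le_one_of_sum (h2 x' hx') c)

theorem hh_Good (N M : ℕ) (hM : 0 < M) (k : ℕ) (hk : k < N) :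
    hh N M k ∈ InS (Good N k (2 * k / M)) := by
  induction k with
  | zero =>
    rw [hh]
    refine single_mem_InS ⟨by simp, ?_, ?_, ?_⟩
    · intro x hx
      rw [List.mem_singleton] at hx
      subst hx
      unfold ev
      have : ∀ i : Fin N, |(if i.val = 0 then (1 : ℝ) else 0)| =
          if i = (⟨0, hk⟩ : Fin N) then 1 else 0 := by
        intro i
        by_cases hi : i = (⟨0, hk⟩ : Fin N)
        · subst hi; simp
        · have : i.val ≠ 0 := fun hh => hi (Fin.ext hh)
          rw [if_neg hi, if_neg this]; simp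
      rw [Finset.sum_congr rfl (fun i _ => this i)]
      simp
    · intro x hx i hi
      rw [List.mem_singleton] at hx
      subst hx
      unfold ev
      rw [if_neg (by omega)]
    · intro x hx y hy i
      rw [List.mem_singleton] at hx hy
      subst hx; subst hy
      simp
  | succ k ih =>
    have ih' := ih (by omega)
    rw [hh]
    have hsum : hh N M k + tau (hh N M k) ∈ InS (Good N k (2 * k / M)) :=
      Submodule.add_mem _ ih' (tau_mem ih')
    refine Submodule.sum_mem _ (fun j hj => ?_)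
    rw [Finset.mem_range] at hj
    have hD : (2 * ((k + 1 : ℕ) : ℝ) / M) = 2 * k / M + 2 / M := by push_cast; ring
    rw [hD]
    refine InS_map _ (fun l hl => ?_) hsum
    rw [pr_single]
    exact prl_Good hk (by omega) hM hl

/-- **M1**: antipodal filtration of the `ℓ¹` sphere by chains of small lists -/
theorem exists_chains (N : ℕ) {δ : ℝ} (hδ : 0 < δ) :
    ∃ h : ℕ → Ch (Fin N → ℝ), h 0 = single [ev N 0] 1 ∧
      (∀ k, bd (h (k + 1)) = h k + tau (h k)) ∧
      (∀ k, k < N → h k ∈ InS (Good N k δ)) := by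
  obtain ⟨M, hM⟩ := exists_nat_gt (2 * N / δ)
  have hMpos : 0 < M := by
    rcases Nat.eq_zero_or_pos M with h | h
    · subst h
      have : 0 ≤ 2 * (N : ℝ) / δ := by positivity
      simp only [Nat.cast_zero] at hM
      linarith
    · exact h
  refine ⟨hh N M, rfl, fun k => (bd_hh N M hMpos k).2, fun k hk => ?_⟩
  refine InS_mono ?_ (hh_Good N M hMpos k hk)
  rintro l ⟨h1, h2, h3, h4⟩
  refine ⟨h1, h2, h3, fun x hx y hy i => (h4 x hx y hy i).trans ?_⟩
  have hM' : (0 : ℝ) < M := by exact_mod_cast hMpos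
  rw [div_le_iff₀ hM']
  rw [div_lt_iff₀ hδ] at hM
  have : (k : ℝ) ≤ N := by exact_mod_cast hk.le
  nlinarith

end Vale.Agent.P052.R2.H612
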