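import Vale.Agent.P052.R2.H612.Chains

/-!
# Fan's lemma for chains of lists (module M2 of P052)
-/

namespace Vale.Agent.P052.R2.H612

open Finsupp

variable {V W : Type*}

/-- evaluation of a chain against a function of lists -/
noncomputable def cnt (φ : List V → ZMod 2) : Ch V →ₗ[ZMod 2] ZMod 2 :=
  Finsupp.linearCombination (ZMod 2) φ

@[simp] theorem cnt_single (φ : List V → ZMod 2) (l : List V) : cnt φ (single l 1) = φ l := by
  simp [cnt]

theorem cnt_consL (φ : List V → ZMod 2) (x : V) (z : Ch V) :
    cnt φ (consL x z) = cnt (fun l => φ (x :: l)) z := by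
  have : cnt φ ∘ₗ consL x = cnt (fun l => φ (x :: l)) := by
    apply ext_single
    intro l
    simp
  exact congrArg (fun f => f z) this

theorem cnt_mapC (φ : List W → ZMod 2) (f : V → W) (z : Ch V) :
    cnt φ (mapC f z) = cnt (fun l => φ (l.map f)) z := by
  have : cnt φ ∘ₗ mapC f = cnt (fun l => φ (l.map f)) := by
    apply ext_single
    intro l
    simp
  exact congrArg (fun f => f z) this

theorem cnt_congr {S : Set (List V)} {φ ψ : List V → ZMod 2} (h : ∀ l ∈ S, φ l = ψ l)
    {z : Ch V} (hz : z ∈ InS S) : cnt φ z = cnt ψ z := by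
  unfold cnt
  rw [Finsupp.linearCombination_apply, Finsupp.linearCombination_apply, Finsupp.sum,
    Finsupp.sum]
  apply Finset.sum_congr rfl
  intro l hl
  rw [h l ((Finsupp.mem_supported _ _).1 hz hl)]

theorem cnt_add_fun (φ ψ : List V → ZMod 2) (z : Ch V) :
    cnt (fun l => φ l + ψ l) z = cnt φ z + cnt ψ z := by
  have : cnt (fun l => φ l + ψ l) = cnt φ + cnt ψ := by
    apply ext_single
    intro l
    simp
  exact congrArg (fun f => f z) this

/-- `cnt φ (bd z)` is `cnt` of the coboundary of `φ` -/
theorem cnt_bd (φ : List V → ZMod 2) (z : Ch V) :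
    cnt φ (bd z) = cnt (fun l => cnt φ (bdl l)) z := by
  have : cnt φ ∘ₗ bd = cnt (fun l => cnt φ (bdl l)) := by
    apply ext_single
    intro l
    simp
  exact congrArg (fun f => f z) this

theorem cnt_bdl_perm {φ : List V → ZMod 2} (hφ : ∀ l l' : List V, l.Perm l' → φ l = φ l')
    {l l' : List V} (h : l.Perm l') : cnt φ (bdl l) = cnt φ (bdl l') := by
  induction h generalizing φ with
  | nil => rfl
  | cons x h ih =>
    rw [bdl_cons, bdl_cons, map_add, map_add, cnt_single, cnt_single, cnt_consL, cnt_consL,
      hφ _ _ h, ih (fun a b hab => hφ _ _ (hab.cons x))]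
  | swap x y l =>
    simp only [bdl_cons, map_add, cnt_single, cnt_consL, consL_single]
    have : cnt (fun l => φ (y :: x :: l)) (bdl l) = cnt (fun l => φ (x :: y :: l)) (bdl l) := by
      congr 2
      funext l
      exact hφ _ _ (List.Perm.swap _ _ _)
    rw [this]
    ring
  | trans h1 h2 ih1 ih2 => rw [ih1 hφ, ih2 hφ]

theorem bdl_sublist (l : List V) : bdl l ∈ InS {m : List V | m.Sublist l} := by
  induction l with
  | nil => simp
  | cons x l ih =>
    rw [bdl_cons]
    refine Submodule.add_mem _ (single_mem_InS (List.sublist_cons_self x l)) ?_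
    refine InS_map (consL x) ?_ ih
    intro m hm
    rw [consL_single]
    exact single_mem_InS (List.Sublist.cons_cons x hm)

theorem bdl_length (l : List V) : bdl l ∈ InS {m : List V | m.length + 1 = l.length} := by
  induction l with
  | nil => simp
  | cons x l ih =>
    rw [bdl_cons]
    refine Submodule.add_mem _ (single_mem_InS (by simp)) ?_
    refine InS_map (consL x) ?_ ih
    intro m hm
    rw [consL_single]
    refine single_mem_InS ?_
    have hm' : m.length + 1 = l.length := hm
    show (x :: m).length + 1 = (x :: l).length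
    simp [hm']

/-- alternating words of signs, starting with `b` -/
def alt : Bool → List Bool → ZMod 2
  | _, [] => 1
  | b, (x :: w) => if x = b then alt (!b) w else 0

theorem alt_bdl (w : List Bool) (b : Bool) : cnt (alt b) (bdl w) = alt b w + alt (!b) w := by
  induction w generalizing b with
  | nil => simp [alt]; decide
  | cons x w ih =>
    rw [bdl_cons, map_add, cnt_single, cnt_consL]
    by_cases hx : x = b
    · subst hx
      have : (fun l => alt x (x :: l)) = alt (!x) := by funext l; simp [alt]
      rw [this, ih, alt, alt, if_pos rfl, if_neg (by cases x <;> simp), Bool.not_not]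
      have h2 : ∀ a b : ZMod 2, a + (b + a) = b + 0 := by decide
      exact h2 _ _
    · have : (fun l => alt b (x :: l)) = fun _ => (0 : ZMod 2) := by
        funext l; simp [alt, hx]
      have h0 : cnt (fun _ => (0 : ZMod 2)) (bdl w) = 0 := by
        have : cnt (fun _ : List Bool => (0 : ZMod 2)) = 0 := by
          apply ext_single; intro l; simp
        rw [this]; rfl
      have hx' : x = !b := by cases x <;> cases b <;> simp_all
      rw [this, h0, alt, alt, if_neg hx, if_pos hx', Bool.not_not]
      ring

/-- sorted list of labels -/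
noncomputable def srt {m : ℕ} (l : List (Fin m × Bool)) : List (Fin m ×ₗ Bool) :=
  Multiset.sort ((l.map toLex : List (Fin m ×ₗ Bool)) : Multiset (Fin m ×ₗ Bool))

theorem srt_perm {m : ℕ} {l l' : List (Fin m × Bool)} (h : l.Perm l') : srt l = srt l' := by
  unfold srt
  have : ((l.map toLex : List (Fin m ×ₗ Bool)) : Multiset (Fin m ×ₗ Bool)) =
      ((l'.map toLex : List (Fin m ×ₗ Bool)) : Multiset (Fin m ×ₗ Bool)) :=
    Multiset.coe_eq_coe.2 (h.map _)
  rw [this]

theorem perm_srt {m : ℕ} (l : List (Fin m × Bool)) : (srt l).Perm (l.map toLex) := by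
  unfold srt
  exact Multiset.coe_eq_coe.1 (Multiset.sort_eq _ _)

theorem srt_pairwise {m : ℕ} (l : List (Fin m × Bool)) : (srt l).Pairwise (· ≤ ·) := by
  unfold srt
  exact Multiset.pairwise_sort _ _

theorem srt_of_pairwise {m : ℕ} {L : List (Fin m ×ₗ Bool)} (h : L.Pairwise (· ≤ ·)) :
    srt (L.map ofLex) = L := by
  apply List.Perm.eq_of_pairwise' (r := (· ≤ ·)) (srt_pairwise _) h
  refine (perm_srt _).trans ?_
  rw [List.map_map]
  have : (toLex ∘ ofLex : (Fin m ×ₗ Bool) → (Fin m ×ₗ Bool)) = id := by
    funext x; simp
  rw [this, List.map_id]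

/-- the alternation indicator of a list of labels -/
noncomputable def fan {m : ℕ} (b : Bool) (l : List (Fin m × Bool)) : ZMod 2 :=
  alt b ((srt l).map (fun p => (ofLex p).2))

theorem fan_perm {m : ℕ} (b : Bool) {l l' : List (Fin m × Bool)} (h : l.Perm l') :
    fan b l = fan b l' := by
  unfold fan; rw [srt_perm h]

theorem fan_bdl {m : ℕ} (b : Bool) (l : List (Fin m × Bool)) :
    cnt (fan b) (bdl l) = fan b l + fan (!b) l := by
  have h1 : l.Perm ((srt l).map ofLex) := by
    have := (perm_srt l).map ofLex
    rw [List.map_map] at this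
    have h2 : (ofLex ∘ toLex : (Fin m × Bool) → (Fin m × Bool)) = id := by
      funext x; simp
    rw [h2, List.map_id] at this
    exact this.symm
  rw [cnt_bdl_perm (fun a c hac => fan_perm b hac) h1, ← mapC_bdl, cnt_mapC]
  have h3 : cnt (fun M : List (Fin m ×ₗ Bool) => fan b (M.map ofLex)) (bdl (srt l)) =
      cnt (fun M : List (Fin m ×ₗ Bool) => alt b (M.map (fun p => (ofLex p).2))) (bdl (srt l)) := by
    apply cnt_congr (S := {M | M.Sublist (srt l)}) _ (bdl_sublist _)
    intro M hM
    unfold fan
    rw [srt_of_pairwise ((srt_pairwise l).sublist hM)]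
  rw [h3]
  have h4 := cnt_mapC (alt b) (fun p : Fin m ×ₗ Bool => (ofLex p).2) (bdl (srt l))
  rw [← h4, mapC_bdl, alt_bdl]
  rfl

/-- no complementary labels -/
def NoComp {m : ℕ} (l : List (Fin m × Bool)) : Prop :=
  ∀ p ∈ l, ∀ q ∈ l, p.1 = q.1 → p.2 = q.2

/-- change of sign of a label -/
def flp {m : ℕ} (p : Fin m × Bool) : Fin m × Bool := (p.1, !p.2)

theorem alt_map_not (w : List Bool) (b : Bool) : alt b (w.map not) = alt (!b) w := by
  induction w generalizing b with
  | nil => rfl
  | cons x w ih =>
    rw [List.map_cons, alt, alt, ih]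
    cases x <;> cases b <;> simp

theorem fan_flp {m : ℕ} (b : Bool) {l : List (Fin m × Bool)} (h : NoComp l) :
    fan b (l.map flp) = fan (!b) l := by
  have h1 : srt (l.map flp) = (srt l).map (fun p => toLex (flp (ofLex p))) := by
    apply List.Perm.eq_of_pairwise' (r := (· ≤ ·)) (srt_pairwise _)
    · rw [List.pairwise_map]
      refine (srt_pairwise l).imp_of_mem ?_
      intro p q hp hq hpq
      have hp' : ofLex p ∈ l := by
        have := (perm_srt l).mem_iff.1 hp
        rw [List.mem_map] at this
        obtain ⟨a, ha, rfl⟩ := this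
        simpa using ha
      have hq' : ofLex q ∈ l := by
        have := (perm_srt l).mem_iff.1 hq
        rw [List.mem_map] at this
        obtain ⟨a, ha, rfl⟩ := this
        simpa using ha
      rw [Prod.Lex.le_iff] at hpq ⊢
      simp only [ofLex_toLex]
      unfold flp
      rcases hpq with h2 | ⟨h2, h3⟩
      · left; exact h2
      · right
        have h4 := h _ hp' _ hq' h2
        exact ⟨h2, by simp only [h4]; exact le_rfl⟩
    · refine (perm_srt _).trans ?_
      have h2 := ((perm_srt l).map (fun p => toLex (flp (ofLex p)))).symm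
      rw [List.map_map] at h2
      rw [List.map_map]
      exact h2
  unfold fan
  rw [h1, List.map_map, ← alt_map_not, List.map_map]
  rfl

/-- **Fan's lemma for chains** (any number of colours): if `h 0` is one point and
`bd (h (k+1)) = h k + ν (h k)` then the number of alternating lists in `h k + ν (h k)` is odd. -/
theorem fan_count {m : ℕ} (nu : V → V) (lam : V → Fin m × Bool) (h : ℕ → Ch V) (K : ℕ)
    (G : ℕ → Set (List V)) (x0 : V)
    (h0 : h 0 = single [x0] 1)
    (hbd : ∀ k, k + 1 < K → bd (h (k + 1)) = h k + mapC nu (h k))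
    (hG : ∀ k, k < K → h k ∈ InS (G k))
    (hodd : ∀ k, k < K → ∀ l ∈ G k, ∀ x ∈ l, lam (nu x) = flp (lam x))
    (hcomp : ∀ k, k < K → ∀ l ∈ G k, NoComp (l.map lam))
    (hodd0 : lam (nu x0) = flp (lam x0)) :
    ∀ k, k < K → ∀ b, cnt (fun l => fan b (l.map lam)) (h k + mapC nu (h k)) = 1 := by
  have hflip : ∀ k, k < K → ∀ b, cnt (fun l => fan b (l.map lam)) (mapC nu (h k)) =
      cnt (fun l => fan (!b) (l.map lam)) (h k) := by
    intro k hk b
    rw [cnt_mapC]
    apply cnt_congr (S := G k) _ (hG k hk)
    intro l hl
    have : (l.map nu).map lam = (l.map lam).map flp := by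
      rw [List.map_map, List.map_map]
      apply List.map_congr_left
      intro x hx
      exact hodd k hk l hl x hx
    rw [this, fan_flp b (hcomp k hk l hl)]
  have hstep : ∀ k, k + 1 < K → ∀ b,
      cnt (fun l => fan b (l.map lam)) (h (k + 1) + mapC nu (h (k + 1))) =
      cnt (fun l => fan b (l.map lam)) (h k + mapC nu (h k)) := by
    intro k hk b
    rw [← hbd k hk, cnt_bd, map_add, hflip (k + 1) hk b]
    have : (fun l : List V => cnt (fun l => fan b (l.map lam)) (bdl l)) =
        fun l => fan b (l.map lam) + fan (!b) (l.map lam) := by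
      funext l
      rw [← fan_bdl, ← mapC_bdl, cnt_mapC]
    rw [this, cnt_add_fun]
  intro k
  induction k with
  | zero =>
    intro hk b
    rw [h0, map_add, mapC_single, cnt_single, cnt_single]
    simp only [List.map_cons, List.map_nil]
    rw [hodd0]
    obtain ⟨c, s⟩ := lam x0
    have hs : ∀ p : Fin m × Bool, srt [p] = [toLex p] := by
      intro p
      have := srt_of_pairwise (L := [toLex p]) (by simp)
      simpa using this
    unfold fan flp
    rw [hs, hs]
    cases b <;> cases s <;> simp [alt]
  | succ k ih =>
    intro hk b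
    rw [hstep k hk b]
    exact ih (by omega) b

/-- the alternating word -/
def aw : Bool → ℕ → List Bool
  | _, 0 => []
  | b, (n + 1) => b :: aw (!b) n

@[simp] theorem length_aw (b : Bool) (n : ℕ) : (aw b n).length = n := by
  induction n generalizing b with
  | zero => rfl
  | succ n ih => simp [aw, ih]

theorem getElem_aw (b : Bool) (n i : ℕ) (h : i < (aw b n).length) :
    (aw b n)[i] = (if i % 2 = 0 then b else !b) := by
  induction n generalizing b i with
  | zero => simp at h
  | succ n ih =>
    cases i with
    | zero => simp [aw]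
    | succ i =>
      simp only [aw, List.getElem_cons_succ]
      rw [ih]
      rcases Nat.mod_two_eq_zero_or_one i with h1 | h1
      · rw [if_pos h1, if_neg (by omega)]
      · rw [if_neg (by omega), if_pos (by omega), Bool.not_not]

theorem alt_aw (b : Bool) (n : ℕ) : alt b (aw b n) = 1 := by
  induction n generalizing b with
  | zero => rfl
  | succ n ih => rw [aw, alt, if_pos rfl, ih]

theorem eq_aw_of_alt (b : Bool) (w : List Bool) (h : alt b w ≠ 0) : w = aw b w.length := by
  induction w generalizing b with
  | nil => rfl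
  | cons x w ih =>
    rw [alt] at h
    by_cases hx : x = b
    · rw [if_pos hx] at h
      subst hx
      rw [List.length_cons, aw, ← ih _ h]
    · rw [if_neg hx] at h
      exact absurd rfl h

theorem fst_pairwise {m : ℕ} (L : List (Fin m ×ₗ Bool)) (b : Bool)
    (h1 : L.Pairwise (· ≤ ·)) (h2 : ∀ p ∈ L, ∀ q ∈ L, (ofLex p).1 = (ofLex q).1 →
      (ofLex p).2 = (ofLex q).2)
    (h3 : alt b (L.map (fun p => (ofLex p).2)) ≠ 0) :
    (L.map (fun p => (ofLex p).1)).Pairwise (· < ·) := by
  induction L generalizing b with
  | nil => simp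
  | cons p L ih =>
    rw [List.map_cons, alt] at h3
    by_cases hp : (ofLex p).2 = b
    · rw [if_pos hp] at h3
      have hL := ih (!b) (List.pairwise_cons.1 h1).2
        (fun p hp q hq => h2 p (List.mem_cons_of_mem _ hp) q (List.mem_cons_of_mem _ hq)) h3
      rw [List.map_cons, List.pairwise_cons]
      refine ⟨?_, hL⟩
      intro c hc
      cases L with
      | nil => simp at hc
      | cons q L =>
        have hq : (ofLex q).2 = !b := by
          rw [List.map_cons, alt] at h3
          by_contra hne
          rw [if_neg hne] at h3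
          exact h3 rfl
        have hpq : p ≤ q := (List.pairwise_cons.1 h1).1 q (by simp)
        have hlt : (ofLex p).1 < (ofLex q).1 := by
          rw [Prod.Lex.le_iff] at hpq
          rcases hpq with h4 | ⟨h4, _⟩
          · exact h4
          · have := h2 p (by simp) q (by simp) h4
            rw [hp, hq] at this
            cases b <;> simp at this
        rw [List.map_cons, List.mem_cons] at hc
        rcases hc with rfl | hc
        · exact hlt
        · rw [List.map_cons, List.pairwise_cons] at hL
          exact hlt.trans (hL.1 c hc)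
    · rw [if_neg hp] at h3
      exact absurd rfl h3

theorem fan_pattern {N : ℕ} (l : List (Fin N × Bool)) (hl : l.length = N) (hc : NoComp l) :
    fan true l = if (∀ i : Fin N, (i, decide (i.val % 2 = 0)) ∈ l) then 1 else 0 := by
  have hlen : (srt l).length = N := by
    rw [(perm_srt l).length_eq, List.length_map, hl]
  have hmem : ∀ p, p ∈ srt l ↔ ofLex p ∈ l := by
    intro p
    rw [(perm_srt l).mem_iff, List.mem_map]
    constructor
    · rintro ⟨a, ha, rfl⟩
      simpa using ha
    · intro h
      exact ⟨ofLex p, h, by simp⟩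
  have hdich : fan true l = 0 ∨ fan true l = 1 := by
    generalize fan true l = a
    revert a
    decide
  by_cases h : ∀ i : Fin N, (i, decide (i.val % 2 = 0)) ∈ l
  · rw [if_pos h]
    set P : List (Fin N × Bool) := (List.finRange N).map (fun i => (i, decide (i.val % 2 = 0)))
      with hP
    have hPnd : P.Nodup := by
      rw [hP]
      refine List.Nodup.map ?_ (List.nodup_finRange N)
      intro a b hab
      exact (Prod.mk.injEq _ _ _ _ ▸ hab).1
    have hPl : P ⊆ l := by
      intro p hp
      rw [hP, List.mem_map] at hp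
      obtain ⟨i, _, rfl⟩ := hp
      exact h i
    have hperm : P.Perm l := by
      refine (List.Nodup.subperm hPnd hPl).perm_of_length_le ?_
      rw [hl, hP]; simp
    have hsorted : (P.map toLex : List (Fin N ×ₗ Bool)).Pairwise (· ≤ ·) := by
      rw [hP, List.map_map, List.pairwise_map]
      refine (List.pairwise_lt_finRange N).imp ?_
      intro a b hab
      rw [Prod.Lex.le_iff]
      left
      exact hab
    have h2 : srt P = P.map toLex := by
      have := srt_of_pairwise hsorted
      rw [List.map_map] at this
      have h3 : (ofLex ∘ toLex : (Fin N × Bool) → (Fin N × Bool)) = id := by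
        funext x; simp
      rw [h3, List.map_id] at this
      exact this
    rw [← fan_perm true hperm]
    unfold fan
    rw [h2, hP, List.map_map, List.map_map]
    have h4 : ((List.finRange N).map (((fun p : Fin N ×ₗ Bool => (ofLex p).2) ∘
        (toLex : Fin N × Bool → Fin N ×ₗ Bool)) ∘ fun i => (i, decide (i.val % 2 = 0)))) =
        aw true N := by
      apply List.ext_getElem
      · simp
      · intro i h5 h6
        rw [getElem_aw]
        simp only [List.getElem_map, List.getElem_finRange, Function.comp]
        rcases Nat.mod_two_eq_zero_or_one i with h1 | h1 <;> simp [h1]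
    rw [h4, alt_aw]
  · rw [if_neg h]
    rcases hdich with h0 | h1
    · exact h0
    · exfalso
      apply h
      have hne : alt true ((srt l).map (fun p => (ofLex p).2)) ≠ 0 := by
        change fan true l ≠ 0
        rw [h1]; decide
      have hpw := fst_pairwise (srt l) true (srt_pairwise l)
        (fun p hp q hq => hc _ ((hmem p).1 hp) _ ((hmem q).1 hq)) hne
      have hw := eq_aw_of_alt true _ hne
      rw [List.length_map, hlen] at hw
      have hfr : (srt l).map (fun p => (ofLex p).1) = List.finRange N := by
        apply List.Perm.eq_of_pairwise' (r := (· < ·)) hpw (List.pairwise_lt_finRange N)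
        refine (List.Nodup.subperm (hpw.imp (fun h => ne_of_lt h))
          (fun x _ => List.mem_finRange x)).perm_of_length_le ?_
        rw [List.length_map, hlen]; simp
      intro i
      have hi : i.val < (srt l).length := by rw [hlen]; exact i.2
      have e1 : (ofLex ((srt l)[i.val])).1 = i := by
        have : ((srt l).map (fun p => (ofLex p).1))[i.val]'(by simpa using hi) = i := by
          simp only [hfr, List.getElem_finRange]
          rfl
        simpa using this
      have e2 : (ofLex ((srt l)[i.val])).2 = decide (i.val % 2 = 0) := by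
        have : ((srt l).map (fun p => (ofLex p).2))[i.val]'(by simpa using hi) =
            decide (i.val % 2 = 0) := by
          simp only [hw, getElem_aw]
          rcases Nat.mod_two_eq_zero_or_one i.val with h1 | h1 <;> simp [h1]
        simpa using this
      have : (i, decide (i.val % 2 = 0)) = ofLex ((srt l)[i.val]) := Prod.ext e1.symm e2.symm
      rw [this]
      exact (hmem _).1 (List.getElem_mem hi)

/-- **pattern count**: with as many colours as the dimension, every full sign pattern is seen an
odd number of times. -/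
theorem pattern_count {N : ℕ} (nu : V → V) (lam : V → Fin (N + 1) × Bool) (h : ℕ → Ch V)
    (G : ℕ → Set (List V)) (x0 : V)
    (h0 : h 0 = single [x0] 1)
    (hbd : ∀ k, k + 1 < N + 1 → bd (h (k + 1)) = h k + mapC nu (h k))
    (hG : ∀ k, k < N + 1 → h k ∈ InS (G k))
    (hlen : ∀ l ∈ G N, l.length = N + 1)
    (hodd : ∀ k, k < N + 1 → ∀ l ∈ G k, ∀ x ∈ l, lam (nu x) = flp (lam x))
    (hcomp : ∀ k, k < N + 1 → ∀ l ∈ G k, NoComp (l.map lam))
    (hodd0 : lam (nu x0) = flp (lam x0)) (ε : Fin (N + 1) → Bool) :
    cnt (fun l => open Classical in if (∀ i, ∃ x ∈ l, lam x = (i, ε i)) then 1 else 0)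
      (h N + mapC nu (h N)) = 1 := by
  classical
  set g : Fin (N + 1) × Bool → Fin (N + 1) × Bool :=
    fun p => (p.1, xor p.2 (xor (ε p.1) (decide (p.1.val % 2 = 0)))) with hg
  have hgflp : ∀ p, g (flp p) = flp (g p) := by
    intro p
    simp only [hg, flp]
    cases p.2 <;> simp
  have hgeps : ∀ p i, g p = (i, decide (i.val % 2 = 0)) ↔ p = (i, ε i) := by
    rintro ⟨c, s⟩ i
    simp only [hg, Prod.mk.injEq]
    constructor
    · rintro ⟨rfl, h2⟩
      refine ⟨rfl, ?_⟩
      revert h2
      cases s <;> cases ε c <;> cases decide (c.val % 2 = 0) <;> simp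
    · rintro ⟨rfl, rfl⟩
      refine ⟨rfl, ?_⟩
      cases ε c <;> cases decide (c.val % 2 = 0) <;> simp
  have hNC : ∀ l : List V, NoComp (l.map lam) → NoComp (l.map (fun x => g (lam x))) := by
    intro l hl p hp q hq hpq
    rw [List.mem_map] at hp hq
    obtain ⟨x, hx, rfl⟩ := hp
    obtain ⟨y, hy, rfl⟩ := hq
    have h1 : (lam x).1 = (lam y).1 := hpq
    have h2 := hl _ (List.mem_map_of_mem hx) _ (List.mem_map_of_mem hy) h1
    simp only [hg, h1, h2]
  have key := fan_count nu (fun x => g (lam x)) h (N + 1) G x0 h0 hbd hG
    (fun k hk l hl x hx => by rw [hodd k hk l hl x hx, hgflp])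
    (fun k hk l hl => hNC l (hcomp k hk l hl)) (by rw [hodd0, hgflp]) N (by omega) true
  refine Eq.trans ?_ key
  have hsup : h N + mapC nu (h N) ∈ InS {l : List V | l.length = N + 1 ∧ NoComp (l.map lam)} := by
    refine Submodule.add_mem _ (InS_mono ?_ (hG N (by omega))) (InS_map _ ?_ (hG N (by omega)))
    · intro l hl
      exact ⟨hlen l hl, hcomp N (by omega) l hl⟩
    · intro l hl
      rw [mapC_single]
      refine single_mem_InS ⟨by rw [List.length_map]; exact hlen l hl, ?_⟩
      have : (l.map nu).map lam = (l.map lam).map flp := by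
        rw [List.map_map, List.map_map]
        apply List.map_congr_left
        intro x hx
        exact hodd N (by omega) l hl x hx
      rw [this]
      intro p hp q hq hpq
      rw [List.mem_map] at hp hq
      obtain ⟨a, ha, rfl⟩ := hp
      obtain ⟨b, hb, rfl⟩ := hq
      have := hcomp N (by omega) l hl a ha b hb hpq
      simp only [flp, this]
  apply cnt_congr _ hsup
  rintro l ⟨h1, h2⟩
  rw [fan_pattern (l.map (fun x => g (lam x))) (by rw [List.length_map, h1]) (hNC l h2)]
  have hiff : (∀ i, ∃ x ∈ l, lam x = (i, ε i)) ↔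
      ∀ i : Fin (N + 1), (i, decide (i.val % 2 = 0)) ∈ l.map (fun x => g (lam x)) := by
    constructor
    · intro hh i
      obtain ⟨x, hx, hx2⟩ := hh i
      rw [List.mem_map]
      exact ⟨x, hx, (hgeps _ _).2 hx2⟩
    · intro hh i
      have := hh i
      rw [List.mem_map] at this
      obtain ⟨x, hx, hx2⟩ := this
      exact ⟨x, hx, (hgeps _ _).1 hx2⟩
  by_cases hc : ∀ i, ∃ x ∈ l, lam x = (i, ε i)
  · rw [if_pos hc, if_pos (hiff.1 hc)]
  · rw [if_neg hc, if_neg (fun hh => hc (hiff.2 hh))]

end Vale.Agent.P052.R2.H612
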